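import Vale.Agent.P286.H527.Maps

/-!
# The categories of test objects of `Bun_{SL_n/μ_d}(ℙ¹)` and `BSL_n`
-/

namespace Vale.Agent.P286

open CategoryTheory LaurentPolynomial

noncomputable section

section

variable {n : ℕ} {A B D : Type} [CommRing A] [CommRing B] [CommRing D]

theorem Glue.id (g : LGL n A) : Glue (RingHom.id A) g g 1 1 := by
  unfold Glue
  rw [map_one, map_one, one_mul, mul_one]
  exact (GLmap_id g).symm

theorem Glue.comp {f : A →+* B} {g : B →+* D} {x : LGL n A} {y : LGL n B} {z : LGL n D}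
    {a b : PSL n B} {a' b' : PSL n D} (h : Glue f x y a b) (h' : Glue g y z a' b') :
    Glue (g.comp f) x z (cmp g a' a) (cmp g b' b) := by
  have h3 := congrArg (Matrix.GeneralLinearGroup.map (lmap g)) h
  unfold Glue cmp at *
  rw [map_mul, map_mul, map_negGL, map_posGL, GLmap_comp] at h3
  rw [map_mul, map_mul, ← mul_assoc, h', mul_assoc, h3, mul_assoc]

theorem cmp_one_right (f : A →+* B) (x : PSL n B) : cmp f x 1 = x := by
  unfold cmp
  rw [map_one, mul_one]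

theorem cmp_one_left (x : PSL n A) : cmp (RingHom.id A) 1 x = x := by
  unfold cmp
  rw [one_mul, slm_id]

theorem cmp_assoc (f : A →+* B) (g : B →+* D) (x : PSL n D) (y : PSL n B) (z : PSL n A) :
    cmp g x (cmp f y z) = cmp (g.comp f) (cmp g x y) z := by
  unfold cmp
  rw [map_mul, slm_comp, mul_assoc]

end

theorem BunHom.ext {n d : ℕ} {X Y : BunObj n d} {φ ψ : BunHom X Y} (h1 : φ.f = ψ.f)
    (h2 : φ.a = ψ.a) (h3 : φ.b = ψ.b) : φ = ψ := by
  cases φ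
  cases ψ
  subst h1 h2 h3
  rfl

/-- The identity. -/
def BunHom.id {n d : ℕ} (X : BunObj n d) : BunHom X X := ⟨SmAlg.Hm.id X.A, 1, 1, Glue.id X.g⟩

/-- The composition. -/
def BunHom.comp {n d : ℕ} {X Y Z : BunObj n d} (φ : BunHom X Y) (ψ : BunHom Y Z) : BunHom X Z :=
  ⟨ψ.f.comp φ.f, cmp ψ.f.r ψ.a φ.a, cmp ψ.f.r ψ.b φ.b, Glue.comp φ.glue ψ.glue⟩

instance (n d : ℕ) : CategoryStruct.{0} (BunObj n d) where
  Hom X Y := BunHom X Y
  id := BunHom.id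
  comp := BunHom.comp

theorem BunHom.id_comp' {n d : ℕ} {X Y : BunObj n d} (φ : X ⟶ Y) : 𝟙 X ≫ φ = φ := by
  apply BunHom.ext
  · rfl
  · exact cmp_one_right (BunHom.f φ).r (BunHom.a φ)
  · exact cmp_one_right (BunHom.f φ).r (BunHom.b φ)

theorem BunHom.comp_id' {n d : ℕ} {X Y : BunObj n d} (φ : X ⟶ Y) : φ ≫ 𝟙 Y = φ := by
  apply BunHom.ext
  · rfl
  · exact cmp_one_left (BunHom.a φ)
  · exact cmp_one_left (BunHom.b φ)

theorem BunHom.assoc' {n d : ℕ} {W X Y Z : BunObj n d} (φ : W ⟶ X) (ψ : X ⟶ Y) (χ : Y ⟶ Z) :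
    (φ ≫ ψ) ≫ χ = φ ≫ ψ ≫ χ := by
  apply BunHom.ext
  · rfl
  · exact cmp_assoc (BunHom.f ψ).r (BunHom.f χ).r (BunHom.a χ) (BunHom.a ψ) (BunHom.a φ)
  · exact cmp_assoc (BunHom.f ψ).r (BunHom.f χ).r (BunHom.b χ) (BunHom.b ψ) (BunHom.b φ)

instance (n d : ℕ) : Category.{0} (BunObj n d) where
  id_comp := BunHom.id_comp'
  comp_id := BunHom.comp_id'
  assoc := BunHom.assoc'

/-- The identity. -/
def BGHom.id {n : ℕ} (X : BGObj n) : BGHom X X := ⟨SmAlg.Hm.id X.A, 1⟩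

/-- The composition. -/
def BGHom.comp {n : ℕ} {X Y Z : BGObj n} (φ : BGHom X Y) (ψ : BGHom Y Z) : BGHom X Z :=
  ⟨ψ.f.comp φ.f, gcmp ψ.f.r ψ.h φ.h⟩

instance (n : ℕ) : CategoryStruct.{0} (BGObj n) where
  Hom X Y := BGHom X Y
  id := BGHom.id
  comp := BGHom.comp

theorem BGHom.id_comp' {n : ℕ} {X Y : BGObj n} (φ : X ⟶ Y) : 𝟙 X ≫ φ = φ := by
  apply BGHom.ext
  · rfl
  · exact (congrArg (BGHom.h φ * ·) (map_one _)).trans (mul_one _)

theorem BGHom.comp_id' {n : ℕ} {X Y : BGObj n} (φ : X ⟶ Y) : φ ≫ 𝟙 Y = φ := by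
  apply BGHom.ext
  · rfl
  · refine (one_mul _).trans ?_
    apply Matrix.SpecialLinearGroup.ext
    intro i j
    rfl

theorem BGHom.assoc' {n : ℕ} {W X Y Z : BGObj n} (φ : W ⟶ X) (ψ : X ⟶ Y) (χ : Y ⟶ Z) :
    (φ ≫ ψ) ≫ χ = φ ≫ ψ ≫ χ := by
  apply BGHom.ext
  · rfl
  · refine (congrArg (BGHom.h χ * ·) (map_mul _ _ _)).trans ?_
    exact (mul_assoc _ _ _).symm

instance (n : ℕ) : Category.{0} (BGObj n) where
  id_comp := BGHom.id_comp'
  comp_id := BGHom.comp_id'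
  assoc := BGHom.assoc'

end

end Vale.Agent.P286
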