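import Vale.Agent.P286.St.Alg

/-!
# Twisted `D`-modules on a prestack, given by its category of smooth affine test objects

A *test category* `T : TSite` is a category whose objects `X` are points `y` of a prestack over a
smooth `ℂ`-algebra `T.R X`, together with a generator `t` of the fibre at `y` of a line bundle `L`;
a morphism `φ : X ⟶ Y` is a homomorphism of algebras `T.f φ : T.R X → T.R Y` together with an
isomorphism of the base change of `y_X` with `y_Y`, and `T.dl φ` is the unit `δ` with
`t_Y = δ • φ_* t_X`.

An object of `TD T` is a family of left `D`-modules `M(X)` on the test objects with the transition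
maps of a left module over the sheaf of twisted differential operators acting on `L^s`, `s = T.s`: a
representation in complex vector spaces of the quiver whose vertices are the test objects and whose
arrows are the morphisms, the functions and the vector fields, with the relations `IsTD`.
-/

namespace Vale.Agent.P286.St

open CategoryTheory

noncomputable section

/-- A category of smooth affine test objects of a prestack with a line bundle `L`, and the twist
`s`; the elements of `cen X` are automorphisms identified with the identity (the prestack is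
rigidified by them). -/
structure TSite : Type 2 where
  C : Type 1
  [cat : Category.{0} C]
  A : C → SmAlg
  f : ∀ {X Y : C}, (X ⟶ Y) → (A X).Hm (A Y)
  dl : ∀ {X Y : C}, (X ⟶ Y) → (A Y).R
  cen : ∀ X : C, Set (X ⟶ X)
  s : ℂ

attribute [instance] TSite.cat

/-- The algebra of a test object. -/
abbrev TSite.R (T : TSite) (X : T.C) : Type := (T.A X).R

/-- The arrows: morphisms of test objects, functions and vector fields. -/
inductive Arr (T : TSite) : T.C → T.C → Type 1
  | tr {X Y : T.C} (φ : X ⟶ Y) : Arr T X Y
  | fn {X : T.C} (a : T.R X) : Arr T X X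
  | vf {X : T.C} (v : (T.A X).Der) : Arr T X X

/-- The vertices: the test objects. -/
def Vx (T : TSite) : Type 1 := T.C

instance (T : TSite) : Quiver (Vx T) := ⟨Arr T⟩

/-- The category of paths. -/
def Pa (T : TSite) : Type 1 := Paths (Vx T)

instance (T : TSite) : Category.{1} (Pa T) := Paths.categoryPaths (Vx T)

/-- The path defined by an arrow. -/
def pa {T : TSite} {X Y : T.C} (e : Arr T X Y) : @Quiver.Hom (Pa T) _ X Y :=
  Quiver.Hom.toPath (V := Vx T) e

/-- Representations of the quiver. -/
def Pre (T : TSite) : Type 1 := Pa T ⥤ ModuleCat.{0} ℂ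

instance (T : TSite) : Category.{1} (Pre T) := Functor.category

instance (T : TSite) : Preadditive (Pre T) := functorCategoryPreadditive

instance (T : TSite) : Linear ℂ (Pre T) := functorCategoryLinear

/-- The functor underlying a representation. -/
def Pre.F {T : TSite} (M : Pre T) : Pa T ⥤ ModuleCat.{0} ℂ := M

/-- The map defined by a homomorphism. -/
def mh {V W : ModuleCat.{0} ℂ} (u : V ⟶ W) : V → W := u.hom

/-- The sections over `X`, as an object of the category of vector spaces. -/
def Pre.o {T : TSite} (M : Pre T) (X : T.C) : ModuleCat.{0} ℂ := M.F.obj X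

/-- The sections over `X`. -/
abbrev Pre.S {T : TSite} (M : Pre T) (X : T.C) : Type := M.o X

/-- The map defined by an arrow. -/
def Pre.ap {T : TSite} (M : Pre T) {X Y : T.C} (e : Arr T X Y) : M.S X → M.S Y :=
  mh (V := M.o X) (W := M.o Y) (M.F.map (pa e))

/-- The map on sections of a morphism. -/
def Pre.hm {T : TSite} {M N : Pre T} (u : M ⟶ N) (X : T.C) : M.S X → N.S X :=
  mh (V := M.o X) (W := N.o X) (NatTrans.app (F := M.F) (G := N.F) u X)

/-- The transition maps. -/
def Pre.tr {T : TSite} (M : Pre T) {X Y : T.C} (φ : X ⟶ Y) : M.S X → M.S Y := M.ap (.tr φ)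

/-- The action of the functions. -/
def Pre.fn {T : TSite} (M : Pre T) (X : T.C) : T.R X → M.S X → M.S X := fun a => M.ap (.fn a)

/-- The action of the vector fields. -/
def Pre.vf {T : TSite} (M : Pre T) (X : T.C) : (T.A X).Der → M.S X → M.S X := fun v => M.ap (.vf v)

/-- The relations of a left module over the twisted differential operators of `L^s`. -/
structure IsTD (T : TSite) (M : Pre T) : Prop where
  dmod : ∀ X : T.C, IsDMod (M.fn X) (M.vf X)
  trans : ∀ (X Y : T.C) (φ : X ⟶ Y),
    IsTrans T.s (T.f φ) (T.dl φ) (M.fn X) (M.vf X) (M.fn Y) (M.vf Y) (M.tr φ)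
  id : ∀ (X : T.C) (m : M.S X), M.tr (𝟙 X) m = m
  comp : ∀ (X Y Z : T.C) (φ : X ⟶ Y) (ψ : Y ⟶ Z) (m : M.S X),
    M.tr (φ ≫ ψ) m = M.tr ψ (M.tr φ m)
  cen : ∀ (X : T.C) (φ : X ⟶ X), φ ∈ T.cen X → ∀ m : M.S X, M.tr φ m = m

/-- The category of left modules over the twisted differential operators of `L^s`. -/
def TD (T : TSite) : Type 1 := ObjectProperty.FullSubcategory (IsTD T)

instance (T : TSite) : Category.{1} (TD T) := ObjectProperty.FullSubcategory.category (IsTD T)

instance (T : TSite) : Preadditive (TD T) := Preadditive.fullSubcategory (IsTD T)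

instance (T : TSite) : Linear ℂ (TD T) := Linear.fullSubcategory (IsTD T)

/-- Complexes. -/
def Cx (T : TSite) : Type 1 := CochainComplex (TD T) ℤ

instance (T : TSite) : Category.{1} (Cx T) := HomologicalComplex.instCategory

variable {T : TSite}

/-- The representation underlying an object. -/
def TD.pre (M : TD T) : Pre T := ObjectProperty.FullSubcategory.obj M

/-- The map on sections of a morphism. -/
def TD.hm {M N : TD T} (u : M ⟶ N) (X : T.C) : M.pre.S X → N.pre.S X :=
  Pre.hm (M := M.pre) (N := N.pre) (InducedCategory.Hom.hom u) X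

/-- The term of degree `i`. -/
def Cx.tm (K : Cx T) (i : ℤ) : TD T := HomologicalComplex.X K i

/-- The sections of the complex `K` in degree `i` over the test object `X`. -/
abbrev Cx.S (K : Cx T) (X : T.C) (i : ℤ) : Type := (K.tm i).pre.S X

/-- The differential of the complex of sections over `X`. -/
def Cx.d (K : Cx T) (X : T.C) (i j : ℤ) : K.S X i → K.S X j :=
  TD.hm (M := K.tm i) (N := K.tm j) (HomologicalComplex.d K i j) X

/-- The transition maps. -/
def Cx.tr (K : Cx T) {X Y : T.C} (φ : X ⟶ Y) (i : ℤ) : K.S X i → K.S Y i := (K.tm i).pre.tr φ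

/-- The action of the functions. -/
def Cx.fn (K : Cx T) (X : T.C) (i : ℤ) : T.R X → K.S X i → K.S X i := (K.tm i).pre.fn X

/-- The map on sections of a morphism of complexes. -/
def Cx.hm {K L : Cx T} (u : K ⟶ L) (X : T.C) (i : ℤ) : K.S X i → L.S X i :=
  TD.hm (M := K.tm i) (N := L.tm i) (HomologicalComplex.Hom.f u i) X

/-- The quasi-isomorphisms: morphisms of complexes which induce bijections on the cohomology of the
complexes of sections over all test objects. -/
def Cx.qis (T : TSite) : MorphismProperty (Cx T) := fun K L u =>
  ∀ (X : T.C) (i j k : ℤ), i + 1 = j → j + 1 = k →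
    HIso (K.d X i j) (K.d X j k) (L.d X i j) (L.d X j k) (Cx.hm u X j)

/-- The complex `K` is *cartesian*: `Lf^* K(X) ≃ K(Y)` for all morphisms `φ : X ⟶ Y` of test
objects, `f = T.f φ`.  The derived pullback of `K(X)` is computed by any complex `P` of flat modules
with a quasi-isomorphism `P → K(X)`, as `T.R X` is smooth over `ℂ`. -/
def Cx.Cart : ObjectProperty (Cx T) := fun K =>
  ∀ X : T.C, ∃ (P : MCx (T.R X)) (p : ∀ i, P.X i → K.S X i), IsFlatRes P (K.fn X) (K.d X) p ∧
    ∀ (Y : T.C) (φ : X ⟶ Y), ∃ q, IsBaseCh (T.f φ).r P (K.fn Y) (K.d Y) (K.tr φ) p q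

/-- The complexes of sections are exact. -/
def Cx.Acyclic (K : Cx T) : Prop :=
  ∀ (X : T.C) (i j k : ℤ), i + 1 = j → j + 1 = k → ∀ x, K.d X j k x = 0 → ∃ y, K.d X i j y = x

/-- The category of cartesian complexes. -/
def CCx (T : TSite) : Type 1 := (Cx.Cart (T := T)).FullSubcategory

instance (T : TSite) : Category.{1} (CCx T) :=
  ObjectProperty.FullSubcategory.category (Cx.Cart (T := T))

/-- The inclusion of the cartesian complexes. -/
def CCx.incl (T : TSite) : CCx T ⥤ Cx T := (Cx.Cart (T := T)).ι

/-- The quasi-isomorphisms of cartesian complexes. -/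
def CCx.qis (T : TSite) : MorphismProperty (CCx T) := (Cx.qis T).inverseImage (CCx.incl T)

/-- The category obtained by inverting the quasi-isomorphisms of cartesian complexes: the homotopy
category of the pretriangulated DG category `(cartesian complexes)/(acyclic cartesian complexes)`. -/
def Ho (T : TSite) : Type 1 := (CCx.qis T).Localization

instance (T : TSite) : Category.{1} (Ho T) :=
  MorphismProperty.instCategoryLocalization (CCx.qis T)

/-- The localization functor. -/
def Ho.Q (T : TSite) : CCx T ⥤ Ho T := (CCx.qis T).Q

/-- The functor on complexes defined by an additive functor. -/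
def mapCx {T T' : TSite} (Φ : TD T ⥤ TD T') [Φ.Additive] : Cx T ⥤ Cx T' :=
  Φ.mapHomologicalComplex (ComplexShape.up ℤ)

/-- A `ℂ`-linear functor `Φ : TD T ⥤ TD T'` defines (termwise) a DG functor between the DG
categories of complexes.  It *is a quasi-equivalence* if it restricts to a functor `Ψ` of the categories
of cartesian complexes, and the latter induces an equivalence of the categories obtained by inverting
the quasi-isomorphisms of cartesian complexes. -/
def IsQuasiEquiv {T T' : TSite} (Φ : TD T ⥤ TD T') [Φ.Additive] : Prop :=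
  ∃ Ψ : CCx T ⥤ CCx T', Nonempty (Ψ ⋙ CCx.incl T' ≅ CCx.incl T ⋙ mapCx Φ) ∧
    ∃ F : Ho T ⥤ Ho T', F.IsEquivalence ∧ Nonempty (Ho.Q T ⋙ F ≅ Ψ ⋙ Ho.Q T')

/-- One step of an equivalence between the DG categories of cartesian complexes of
`D(L^s)`-modules and of `D(L'^s')`-modules: a quasi-equivalence defined by a linear functor. -/
def DGStep (T T' : TSite) : Prop :=
  ∃ (Φ : TD T ⥤ TD T') (_ : Φ.Additive), Φ.Linear ℂ ∧ IsQuasiEquiv Φ

/-- The DG categories of cartesian complexes of `D(L^s)`-modules and of `D(L'^s')`-modules (with the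
quasi-isomorphisms inverted) are equivalent: they are connected by a zigzag of quasi-equivalences. -/
def DGEquivalent (T T' : TSite) : Prop := Relation.EqvGen DGStep T T'

end

end Vale.Agent.P286.St
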