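import Vale.Agent.P286.Site
import Vale.Agent.P286.St.TD

/-!
# The test category of a site
-/

namespace Vale.Agent.P286

/-- The test category of a site, with the twist `s`. -/
def Site.toT (T : Site) (s : ℂ) : St.TSite where
  C := T.C
  A X := ⟨T.R X⟩
  f := T.res
  dl φ := (T.dl φ : T.R _)
  cen := T.cen
  s := s

end Vale.Agent.P286
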