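import Mathlib

/-!
# Smooth algebras, complexes of modules, base change, left `D`-modules
-/

namespace Vale.Agent.P286

/-- A smooth `ℂ`-algebra. -/
structure SmAlg : Type 1 where
  R : Type
  [ring : CommRing R]
  [alg : Algebra ℂ R]
  [smooth : Algebra.Smooth ℂ R]

attribute [instance] SmAlg.ring SmAlg.alg SmAlg.smooth

/-- The homomorphisms of `ℂ`-algebras. -/
abbrev SmAlg.Hm (A B : SmAlg) : Type := A.R →ₐ[ℂ] B.R

/-- The underlying homomorphism of rings. -/
abbrev SmAlg.Hm.r {A B : SmAlg} (f : A.Hm B) : A.R →+* B.R := f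

/-- The identity. -/
abbrev SmAlg.Hm.id (A : SmAlg) : A.Hm A := AlgHom.id ℂ A.R

/-- The composition. -/
abbrev SmAlg.Hm.comp {A B D : SmAlg} (g : B.Hm D) (f : A.Hm B) : A.Hm D := AlgHom.comp g f

/-- The vector fields. -/
abbrev SmAlg.Der (A : SmAlg) : Type := Derivation ℂ A.R A.R

/-- An (unbounded) complex of `A`-modules. -/
structure MCx (A : Type) [CommRing A] where
  X : ℤ → Type
  [grp : ∀ i, AddCommGroup (X i)]
  [mod : ∀ i, Module A (X i)]
  d : ∀ i j, X i →ₗ[A] X j
  dd : ∀ i j k, (d j k).comp (d i j) = 0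

attribute [instance] MCx.grp MCx.mod

section BaseChange

variable {A B : Type} [CommRing A] [CommRing B] (f : A →+* B)

/-- The base change `B ⊗_A P` of an `A`-module along a ring homomorphism `f : A → B`. -/
abbrev ExtS (P : Type) [AddCommGroup P] [Module A P] : Type :=
  letI : Module A B := Module.compHom B f
  TensorProduct A B P

/-- The base change of a linear map. -/
noncomputable def ExtS.map {P Q : Type} [AddCommGroup P] [Module A P] [AddCommGroup Q] [Module A Q]
    (u : P →ₗ[A] Q) : ExtS f P →+ ExtS f Q :=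
  letI : Module A B := Module.compHom B f
  (LinearMap.lTensor B u).toAddMonoidHom

/-- The element `b ⊗ x`. -/
def ExtS.el {P : Type} [AddCommGroup P] [Module A P] (b : B) (x : P) : ExtS f P :=
  letI : Module A B := Module.compHom B f
  TensorProduct.tmul A b x

end BaseChange

namespace St

/-- For two three-term complexes `X₁ → X₂ → X₃` and `Y₁ → Y₂ → Y₃` and a map `u : X₂ → Y₂`
(which is part of a map of complexes): `u` induces a bijection on the cohomology in the middle. -/
def HIso {X₁ X₂ X₃ Y₁ Y₂ Y₃ : Type} [AddCommGroup X₃] [AddCommGroup Y₂] [AddCommGroup Y₃]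
    (d₁ : X₁ → X₂) (d₂ : X₂ → X₃) (e₁ : Y₁ → Y₂) (e₂ : Y₂ → Y₃) (u : X₂ → Y₂) : Prop :=
  (∀ x : X₂, d₂ x = 0 → (∃ y : Y₁, e₁ y = u x) → ∃ x' : X₁, d₁ x' = x) ∧
  (∀ y : Y₂, e₂ y = 0 → ∃ x : X₂, d₂ x = 0 ∧ ∃ y' : Y₁, e₁ y' = y - u x)

/-- The map `p` is additive. -/
def IsAdd {P K : Type} [AddCommGroup P] [AddCommGroup K] (p : P → K) : Prop :=
  ∀ x y, p (x + y) = p x + p y

/-- The map `p` is homogeneous, for the action `fn` of `A` on `K`. -/
def IsHom {A P K : Type} [CommRing A] [AddCommGroup P] [Module A P] (fn : A → K → K) (p : P → K) :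
    Prop :=
  ∀ a x, p (a • x) = fn a (p x)

/-- The base change of a linear map. -/
noncomputable def bcf {A B P Q : Type} [CommRing A] [CommRing B] [AddCommGroup P] [Module A P]
    [AddCommGroup Q] [Module A Q] (f : A →+* B) (u : P →ₗ[A] Q) : ExtS f P → ExtS f Q :=
  ExtS.map f u

section

variable {A B : Type} [CommRing A] [CommRing B]

/-- The differential of `P`. -/
def df (P : MCx A) (i j : ℤ) : P.X i → P.X j := P.d i j

/-- The terms `B ⊗_A P_i` of the base change of `P`. -/
def BC (f : A →+* B) (P : MCx A) (i : ℤ) : Type := ExtS f (P.X i)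

noncomputable instance (f : A →+* B) (P : MCx A) (i : ℤ) : AddCommGroup (BC f P i) :=
  letI : Module A B := Module.compHom B f
  TensorProduct.addCommGroup

/-- The differential of the base change of `P`. -/
noncomputable def BC.df (f : A →+* B) (P : MCx A) (i j : ℤ) : BC f P i → BC f P j :=
  bcf f (P.d i j)

/-- The element `b ⊗ x`. -/
def BC.el (f : A →+* B) (P : MCx A) (i : ℤ) (b : B) (x : P.X i) : BC f P i := ExtS.el f b x

/-- `p : P → K` is a quasi-isomorphism from a complex of flat modules to a complex `K` of modules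
(with the action `fn` and the differential `d`). -/
structure IsFlatRes (P : MCx A) {K : ℤ → Type} [∀ i, AddCommGroup (K i)]
    (fn : ∀ i, A → K i → K i) (d : ∀ i j, K i → K j) (p : ∀ i, P.X i → K i) : Prop where
  flat : ∀ i, Module.Flat A (P.X i)
  add : ∀ i, IsAdd (p i)
  hom : ∀ i, IsHom (fn i) (p i)
  comm : ∀ i j x, p j (df P i j x) = d i j (p i x)
  hiso : ∀ i j k, i + 1 = j → j + 1 = k → HIso (df P i j) (df P j k) (d i j) (d j k) (p j)

/-- The map `q : B ⊗ P → K'`, `b ⊗ x ↦ b • t (p x)` is a quasi-isomorphism; here `K'` is a complex of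
`B`-modules (with the action `fn` and the differential `d`), and `p : P → K`, `t : K → K'`. -/
structure IsBaseCh (f : A →+* B) (P : MCx A) {K K' : ℤ → Type} [∀ i, AddCommGroup (K' i)]
    (fn : ∀ i, B → K' i → K' i) (d : ∀ i j, K' i → K' j) (t : ∀ i, K i → K' i)
    (p : ∀ i, P.X i → K i) (q : ∀ i, BC f P i → K' i) : Prop where
  add : ∀ i, IsAdd (q i)
  el : ∀ i b x, q i (BC.el f P i b x) = fn i b (t i (p i x))
  hiso : ∀ i j k, i + 1 = j → j + 1 = k →
    HIso (BC.df f P i j) (BC.df f P j k) (d i j) (d j k) (q j)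

end

/-- The functions and vector fields act by a left `D`-module structure. -/
structure IsDMod {R M : Type} [CommRing R] [Algebra ℂ R] [AddCommGroup M] [Module ℂ M]
    (fn : R → M → M) (vf : Derivation ℂ R R → M → M) : Prop where
  const : ∀ (c : ℂ) m, fn (algebraMap ℂ R c) m = c • m
  fn_add : ∀ a b m, fn (a + b) m = fn a m + fn b m
  fn_mul : ∀ a b m, fn (a * b) m = fn a (fn b m)
  vf_add : ∀ v w m, vf (v + w) m = vf v m + vf w m
  vf_smul : ∀ (a : R) v m, vf (a • v) m = fn a (vf v m)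
  vf_fn : ∀ (v : Derivation ℂ R R) a m, vf v (fn a m) = fn (v a) m + fn a (vf v m)
  vf_lie : ∀ v w m, vf ⁅v, w⁆ m = vf v (vf w m) - vf w (vf v m)

/-- The map `t : M → N` is linear, and horizontal up to the twist `s • dlog δ`. -/
structure IsTrans {R S M N : Type} [CommRing R] [Algebra ℂ R] [CommRing S] [Algebra ℂ S]
    [AddCommGroup N] [Module ℂ N] (s : ℂ) (f : R →ₐ[ℂ] S) (δ : S)
    (fn : R → M → M) (vf : Derivation ℂ R R → M → M)
    (fn' : S → N → N) (vf' : Derivation ℂ S S → N → N) (t : M → N) : Prop where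
  fn : ∀ a m, t (fn a m) = fn' (f a) (t m)
  vf : ∀ (w : Derivation ℂ S S) (k : ℕ) (c : Fin k → S) (v : Fin k → Derivation ℂ R R),
    (∀ a, w (f a) = ∑ i, c i * f (v i a)) → ∀ m, fn' δ (vf' w (t m)) =
      fn' δ (∑ i, fn' (c i) (t (vf (v i) m))) - s • fn' (w δ) (t m)

end St

end Vale.Agent.P286
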