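import Vale.Agent.P286.St.Alg
import Vale.Agent.P286.Loop

/-!
# The moduli stack of `SL_n/μ_d`-bundles on the projective line and its canonical bundle

Let `d` divide `n` and `G = SL_n/μ_d`.  Étale locally on the base, a `G`-bundle on `ℙ¹_A` is the
`G`-bundle defined by a vector bundle `E` of rank `n` with `det E = O((n/d) k)`, `0 ≤ k < d`, which
is trivial on the two charts `Spec A[z]`, `Spec A[z⁻¹]`, i.e. by a transition matrix
`g ∈ GL_n(A[z,z⁻¹])` with `det g = z^{(n/d)k}`; an isomorphism is (étale locally) a pair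
`a ∈ SL_n(A[z])`, `b ∈ SL_n(A[z⁻¹])` with `g' b = a g`, and `ζ ∈ μ_d` acts trivially.  So the stack
`Bun_G(ℙ¹)` is the stackification of the prestack of these data.

The canonical bundle `ω` has the fibre `det RΓ(ℙ¹, 𝔤_E) = det RΓ(ℙ¹, 𝔤_E(-1))`
(as `det Ad = 1`) `= det RΓ(ℙ¹, End(E)(-1))`, which is the determinant line of the Toeplitz
operator `toep g : X ↦ (g X g⁻¹)_{≤0}` on `M_n(A[z⁻¹])`.  A generator of this line is given by an
invertible operator `S` such that `S - toep g` has finite rank, and the generators `t_S` of two such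
operators are related by `t_{S'} = fdet (S * S'⁻¹) • t_S` (Fredholm determinant).
-/

namespace Vale.Agent.P286

open CategoryTheory LaurentPolynomial

noncomputable section

/-- `SL_n(A[z])` (or `SL_n(A[z⁻¹])`) -/
abbrev PSL (n : ℕ) (A : Type) [CommRing A] : Type :=
  Matrix.SpecialLinearGroup (Fin n) (Polynomial A)

/-- `GL_n(A[z,z⁻¹])` -/
abbrev LGL (n : ℕ) (A : Type) [CommRing A] : Type := Matrix.GeneralLinearGroup (Fin n) A[T;T⁻¹]

/-- operators on `M_n(A[z⁻¹])` -/
abbrev Opr (n : ℕ) (A : Type) [CommRing A] : Type := Module.End A (Ix n →₀ A)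

/-- invertible operators -/
abbrev OprU (n : ℕ) (A : Type) [CommRing A] : Type := (Opr n A)ˣ

variable {n : ℕ} {A B D : Type} [CommRing A] [CommRing B] [CommRing D]

/-- Base change of a matrix in `SL_n(A[z])`. -/
def slm (n : ℕ) (f : A →+* B) : PSL n A →* PSL n B :=
  Matrix.SpecialLinearGroup.map (Polynomial.mapRingHom f)

/-- The transition matrix `g` defines a vector bundle with determinant `O(e k)`, `0 ≤ k < d`. -/
def DetCond (d e : ℕ) (g : LGL n A) : Prop :=
  ∃ k : ℕ, k < d ∧ (g : Matrix (Fin n) (Fin n) A[T;T⁻¹]).det = T ((e : ℤ) * (k : ℤ))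

/-- `S` is a framing of the determinant line of the Toeplitz operator of `g`. -/
def IsFraming (g : LGL n A) (S : OprU n A) : Prop := FinRank ((S : Opr n A) - toep g)

/-- The pair `(a, b)` is an isomorphism from the bundle `f(g)` to the bundle `g'`. -/
def Glue (f : A →+* B) (g : LGL n A) (g' : LGL n B) (a b : PSL n B) : Prop :=
  g' * negGL n B b = posGL n B a * Matrix.GeneralLinearGroup.map (lmap f) g

/-- The composition. -/
def cmp (f : A →+* B) (x : PSL n B) (y : PSL n A) : PSL n B := x * slm n f y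

/-- The scalar matrix `ζ`. -/
def IsScal [Algebra ℂ A] (ζ : ℂ) (a : PSL n A) : Prop :=
  (a : Matrix (Fin n) (Fin n) (Polynomial A)) = Matrix.scalar (Fin n) (algebraMap ℂ (Polynomial A) ζ)

/-- The product `p s q u⁻¹`. -/
def mul₄ {E : Type} [Monoid E] (p s q : E) (u : Eˣ) : E := p * s * q * ((u⁻¹ : Eˣ) : E)

/-- The element `δ` with `t_{S'} = δ • (a, b)_* f_* t_S`. -/
def delta (f : A →+* B) (a b : PSL n B) (S : OprU n A) (S' : OprU n B) : B :=
  fdet (mul₄ (toep (posGL n B a)) (bc f (S : Opr n A)) (toep (negGL n B b⁻¹)) S')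

/-- Test objects of `Bun_{SL_n/μ_d}(ℙ¹)` with a generator of `ω`. -/
structure BunObj (n d : ℕ) : Type 1 where
  A : SmAlg
  /-- the transition matrix -/
  g : LGL n A.R
  det_g : DetCond d (n / d) g
  /-- the framing of the determinant line of `RΓ(End(E)(-1))` -/
  S : OprU n A.R
  framing : IsFraming g S

/-- Morphisms of test objects of `Bun_{SL_n/μ_d}(ℙ¹)`. -/
structure BunHom {n d : ℕ} (X Y : BunObj n d) : Type where
  f : X.A.Hm Y.A
  a : PSL n Y.A.R
  b : PSL n Y.A.R
  glue : Glue f.r X.g Y.g a b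

/-- Test objects of `BSL_n`: the trivial `SL_n`-torsor over a smooth algebra. -/
structure BGObj (n : ℕ) : Type 1 where
  A : SmAlg

/-- `SL_n(A)` -/
abbrev GSL (n : ℕ) (A : Type) [CommRing A] : Type := Matrix.SpecialLinearGroup (Fin n) A

/-- The composition. -/
def gcmp (f : A →+* B) (x : GSL n B) (y : GSL n A) : GSL n B :=
  x * Matrix.SpecialLinearGroup.map f y

/-- Morphisms of test objects of `BSL_n`. -/
@[ext]
structure BGHom {n : ℕ} (X Y : BGObj n) : Type where
  f : X.A.Hm Y.A
  h : GSL n Y.A.R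

end

end Vale.Agent.P286
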